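import Vale.Agent.P287D.Fg.Bpf
import Vale.Agent.P283M.Kl.Bas
import Vale.Agent.P277Z.Gr.Ver

/-!
# P283R: the rings of sections on varieties of Fano type are finitely generated
-/

open Set

noncomputable section

namespace Vale.Agent.P283R.Un

open Vale.Agent.P287D Vale.Agent.P283M P277Z.Gr

variable {n k : ℕ} {K : Type} [Field K] [Algebra ℂ K] {u : Finset K} {Λ Γ Γ' : BD K}

/-- the sections -/
def Hs (T : Set (Pl K)) (D : Fin k → Pl K → ℤ) (m : Fin k → ℤ) : Submodule ℂ K :=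
  ⨅ P ∈ T, P.sub ((∑ i, m i * D i P : ℤ) : ℝ)

theorem mem_Hs {T : Set (Pl K)} {D : Fin k → Pl K → ℤ} {m : Fin k → ℤ} {f : K} :
    f ∈ Hs T D m ↔ (f ≠ 0 → ∀ P ∈ T, 0 ≤ P.ord f + ∑ i, m i * D i P) := by
  simp only [Hs, Submodule.mem_iInf, Pl.mem_sub]
  refine ⟨fun h f0 P hP => ?_, fun h P hP => or_iff_not_imp_left.2 fun f0 => ?_⟩
  · exact_mod_cast (h P hP).resolve_left f0
  · exact_mod_cast h f0 P hP

theorem fam_Hs (T : Set (Pl K)) (D : Fin k → Pl K → ℤ) : Fam (Hs T D) where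
  one := mem_Hs.2 fun _ P _ => by simp
  mul := fun {a b f g} hf hg => mem_Hs.2 fun h P hP => by
    have x := mem_Hs.1 hf (left_ne_zero_of_mul h) P hP
    have y := mem_Hs.1 hg (right_ne_zero_of_mul h) P hP
    rw [P297Z.Pl.ord_mul _ (left_ne_zero_of_mul h) (right_ne_zero_of_mul h)]
    simp only [Pi.add_apply, add_mul, Finset.sum_add_distrib]
    omega

theorem fam_H0 {ι : Type} [Fintype ι] (F : ι → BD K) (c : ℝ) :
    Fam fun a : ι → ℕ => H0 (c • lc F fun i => (a i : ℝ)) where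
  one := mem_H0.2 (sec_one.2 (by
    have : (fun i => (((0 : ι → ℕ) i : ℕ) : ℝ)) = 0 := funext fun _ => by simp
    rw [this, lc_zero, smul_zero]))
  mul := fun {a b f g} hf hg => mem_H0.2 (by
    have : (fun i => (((a + b) i : ℕ) : ℝ)) = (fun i => (a i : ℝ)) + fun i => (b i : ℝ) :=
      funext fun _ => by simp
    rw [this, lc_add, smul_add]
    exact (mem_H0.1 hf).mul (mem_H0.1 hg))

/-- an effective Cartier divisor which is positive on finitely many primes -/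
theorem exists_pos (hΛ : Smp Λ) (bΛ : Big Λ) {S : Set (Pl K)} (hS : S.Finite) :
    ∃ G : BD K, 0 ≤ G ∧ Dsc Λ G ∧ ∀ P ∈ S, 0 < G P := by
  classical
  have k : ∀ P : Pl K, ∃ G : BD K, 0 ≤ G ∧ Dsc Λ G ∧ 0 < G P := fun P => by
    obtain ⟨ε, e, G, hG⟩ := bΛ {1, P.t⁻¹}
    have a : (0 : BD K) ≤ mx {1, P.t⁻¹} := mx_nonneg (by simp)
    have r := hG.add (Rep.refl (smul_nonneg e.le a))
    rw [sub_add_cancel] at r
    refine ⟨_, r.1, (Dsc.refl hΛ).congr r.2, add_pos_of_nonneg_of_pos (hG.1 P) (mul_pos e ?_)⟩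
    rw [mx_one_pair, dv_inv, neg_neg, Pi.sup_apply, dv_apply, P.ord_t]
    simp
  choose G g0 g1 g2 using k
  refine ⟨∑ P ∈ hS.toFinset, G P, Finset.sum_nonneg fun P _ => g0 P, Dsc.sum hΛ _ fun P _ => g1 P,
    fun P hP => ?_⟩
  rw [Finset.sum_apply]
  exact (g2 P).trans_le (Finset.single_le_sum (f := fun Q => G Q P) (fun Q _ => g0 Q P)
    (hS.mem_toFinset.2 hP))

theorem exists_large {α : Type} (T : Finset α) (x q : α → ℝ) (h : ∀ P ∈ T, 0 < q P) :
    ∃ l : ℕ, ∀ c : ℝ, l ≤ c → ∀ P ∈ T, 0 ≤ x P + c * q P := by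
  classical
  obtain ⟨C, hC⟩ := (T.image fun P => -x P / q P).exists_le
  obtain ⟨l, hl⟩ := exists_nat_ge C
  refine ⟨l, fun c hc P hP => ?_⟩
  have := (div_le_iff₀ (h P hP)).1 ((hC _ (Finset.mem_image_of_mem _ hP)).trans (hl.trans hc))
  linarith

/-- the global adjoint datum -/
theorem glob (a : Dat n u Λ Γ Γ') {S : Set (Pl K)} (hS : S.Finite) {G : BD K} (hG : G ∈ Car K) :
    ∃ (A κ : BD K) (T : Finset (Pl K)) (h : Pl K → BD K) (F Γ₀ : BD K), LS n A κ T h ∧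
      (∀ P ∈ S, P ∈ T) ∧ Dsc A Λ ∧ Sup n A T G ∧ Sup n A T (inf u) ∧ Sup n A T F ∧ CarQ F ∧
      Γ₀ ∈ Car K ∧ Klt (n + 1) Γ₀ ∧ Bdy n A Γ₀ ∧ Nef (F - Γ₀) ∧ Big (F - Γ₀) ∧
      ∀ P ∈ T, (Ov u P ∧ On n Λ P → F P = 0) ∧ (¬ (Ov u P ∧ On n Λ P) → 0 < F P) := by
  classical
  obtain ⟨ε, e, γ, s, hγ⟩ := a.amp
  obtain ⟨w, κ, T, h, l, t, c, d⟩ := exists_ls a.ff hS (toFinite {Λ, Γ', γ, inf u, G})
    (by
      simp only [mem_insert_iff, mem_singleton_iff, forall_eq_or_imp, forall_eq]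
      exact ⟨a.smp.car, a.car'.car, s.car, (Kl.inf_smp u).car, hG⟩)
  have d1 := d Λ (by simp)
  have d2 := d Γ' (by simp)
  have d3 := d γ (by simp)
  have d4 := d (inf u) (by simp)
  obtain ⟨C, hC⟩ := exists_large (T.filter fun P => ¬ Ov u P) (fun P => (κ + (γ + ε • Λ)) P - 1)
    (inf u) fun P hP => Kl.inf_pos (Finset.mem_filter.1 hP).2
  set X : BD K := γ + ε • Λ + (C : ℝ) • inf u with hX
  have sX : Smp X := (s.add (a.smp.smul e.le)).add ((Kl.inf_smp u).smul C.cast_nonneg)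
  have bX : Big X := (s.psef.add_big (a.big.smul e)).add_smp ((Kl.inf_smp u).smul C.cast_nonneg)
  have uX : Sup n (mx w) T X := (d3.add (d1.smul ε)).add (d4.smul C)
  have v1 : ∀ P ∈ T, Ov u P → (κ + X) P = dsc (n + 1) Γ' P := fun P hP o => by
    have x := hγ P o
    have y := l.d0 (l.on P hP)
    simp only [hX, dsc, Pi.add_apply, Pi.sub_apply, Pi.smul_apply, Pi.neg_apply, smul_eq_mul,
      Kl.inf_zero.2 o] at x y ⊢
    linarith
  have v2 : ∀ P ∈ T, ¬ Ov u P → 1 ≤ (κ + X) P := fun P hP o => by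
    have x := hC C le_rfl P (Finset.mem_filter.2 ⟨hP, o⟩)
    simp only [hX, Pi.add_apply, Pi.smul_apply, smul_eq_mul] at x ⊢
    linarith
  have ex : ∀ P, ∃ q : ℚ, P ∈ T → (κ + X) P ≤ q ∧ (q : ℝ) < (κ + X) P + 1 ∧
      (Ov u P ∧ On n Λ P → (q : ℝ) = 0) ∧ (¬ (Ov u P ∧ On n Λ P) → (0 : ℝ) < q) := fun P => by
    by_cases hP : P ∈ T
    swap
    · exact ⟨0, fun x => (hP x).elim⟩
    have p : -1 < (κ + X) P := by
      by_cases o : Ov u P
      · rw [v1 P hP o]; exact a.klt P o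
      · linarith [v2 P hP o]
    by_cases b : Ov u P ∧ On n Λ P
    · refine ⟨0, fun _ => ⟨?_, ?_, fun _ => Rat.cast_zero, fun x => (x b).elim⟩⟩
      · rw [v1 P hP b.1, Rat.cast_zero]; exact a.bdy P b.1 b.2
      · rw [Rat.cast_zero]; linarith
    · obtain ⟨q, q1, q2⟩ := exists_rat_btwn (show max ((κ + X) P) 0 < (κ + X) P + 1 from
        max_lt (by linarith) (by linarith))
      exact ⟨q, fun _ => ⟨((le_max_left _ _).trans q1.le), q2, fun x => (b x).elim,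
        fun _ => (le_max_right _ _).trans_lt q1⟩⟩
  choose q hq using ex
  obtain ⟨f1, f2⟩ := l.hull_sum fun P => (q P : ℝ)
  set F := ∑ P ∈ T, (q P : ℝ) • h P with hF
  have uF : Sup n (mx w) T F := ⟨f1, fun P p r => (f2 P p).trans (if_neg r)⟩
  have eF : ∀ P ∈ T, F P = q P := fun P hP => (f2 P (l.on P hP)).trans (if_pos hP)
  have u0 : Sup n (mx w) T (κ - (F - X)) := c.sub (uF.sub uX)
  have dd : ∀ P, On n (mx w) P → dsc (n + 1) (F - X) P = (κ - (F - X)) P := fun P p => by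
    have y := l.d0 p
    simp only [dsc, Pi.sub_apply] at y ⊢
    linarith
  have de : ∀ P ∈ T, dsc (n + 1) (F - X) P = (κ + X) P - q P := fun P hP => by
    rw [dd P (l.on P hP), Pi.sub_apply, Pi.sub_apply, eF P hP, Pi.add_apply]
    ring
  refine ⟨mx w, κ, T, h, F, F - X, l, t, d1.1, d G (by simp), d4, uF,
    CarQ.sum _ fun P _ => (CarZ.carQ (l.hz P)).qsmul _, sub_mem f1.car sX.car, fun Q => ?_,
    fun P p => ?_, by rw [sub_sub_cancel]; exact sX.nef, by rw [sub_sub_cancel]; exact bX,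
    fun P hP => eF P hP ▸ (hq P hP).2.2⟩
  · have := l.gt u0 (Q := Q) le_rfl one_pos fun P hP _ => by
      rw [de P hP]; linarith [(hq P hP).2.1]
    linarith
  · by_cases hP : P ∈ T
    · rw [de P hP]; linarith [(hq P hP).1]
    · rw [dd P p, u0.2 P p hP]

/-- **finite generation** -/
theorem fg (a : Dat n u Λ Γ Γ') (D : Fin k → Pl K → ℤ)
    (fin : ∀ i, {P | Ov u P ∧ On n Λ P ∧ D i P ≠ 0}.Finite) :
    FG (Hs {P | Ov u P ∧ On n Λ P} D) univ := by
  classical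
  have hS : (⋃ i, {P | Ov u P ∧ On n Λ P ∧ D i P ≠ 0}).Finite := finite_iUnion fin
  obtain ⟨G, g0, g1, g2⟩ := exists_pos a.smp a.big hS
  obtain ⟨A, κ, T, h, F, Γ₀, l, t, dΛ, uG, uI, uF, cF, c0, k0, b0, n0, b1, hF⟩ := glob a hS g1.car
  let c : Fin k → Pl K → ℤ := fun i P => if Ov u P ∧ On n Λ P then D i P else 0
  let w : Fin k → BD K := fun i => ∑ P ∈ T, (c i P : ℝ) • h P
  have wz : ∀ i, w i ∈ CarZ K := fun i => sum_mem fun P _ => CarZ.zsmul (l.hz P) _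
  have wd : ∀ i, Dsc A (w i) := fun i => (l.hull_sum fun P => (c i P : ℝ)).1
  have w0 : ∀ i P, On n A P → P ∉ T → w i P = 0 := fun i P p r =>
    ((l.hull_sum fun P => (c i P : ℝ)).2 P p).trans (if_neg r)
  have up : ∀ P, On n Λ P → On n A P := fun P => Pr.on_mono res' a.ff a.smp l.smp dΛ
  have w1 : ∀ i P, Ov u P → On n Λ P → w i P = D i P := fun i P o p => by
    by_cases r : P ∈ T
    · refine (((l.hull_sum fun P => (c i P : ℝ)).2 P (up P p)).trans (if_pos r)).trans ?_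
      simp only [c, if_pos (And.intro o p)]
    · rw [w0 i P (up P p) r, not_not.1 fun x => r (t P (mem_iUnion.2 ⟨i, o, p, x⟩)), Int.cast_zero]
  have F1 : ∀ P, Ov u P → On n Λ P → F P = 0 := fun P o p => by
    by_cases r : P ∈ T
    exacts [(hF P r).1 ⟨o, p⟩, uF.2 P (up P p) r]
  obtain ⟨E, e1, e0, k1, s1, b2, d1⟩ := Ba.Fg.kod a.ff c0 k0 n0 b1 fun i => CarZ.car (wz i)
  obtain ⟨η, h0, h1⟩ := Ba.Fg.amp_box s1 d1
  obtain ⟨ν, hν⟩ := exists_nat_one_div_lt h0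
  let v : Option (Fin k) → Fin k → ℚ := fun j i =>
    (j.elim (-1) fun j => if i = j then 1 else 0) / ((ν + 1 : ℕ) : ℚ)
  let Fj : Option (Fin k) → BD K := fun j => F + ∑ i, (v j i : ℝ) • w i
  have dj : ∀ j, Dsc A (Fj j) := fun j => uF.1.add (Dsc.sum l.smp _ fun i _ => (wd i).smul _)
  obtain ⟨μ, μ0, H⟩ := Api.fgu n K a.ff _ A Fj (fun _ => Γ₀ + E) l.smp l.big fun j => by
    have x := h1 (fun i => (v j i : ℝ)) fun i => by
      refine le_trans ?_ hν.le
      have p : (0 : ℝ) < ν + 1 := by positivity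
      rcases j with _ | j
      · simp [v, abs_div, abs_of_pos p]
      · by_cases g : i = j <;> simp [v, g, abs_of_pos p, p.le]
    rw [show F - Γ₀ - E + ∑ i, (v j i : ℝ) • w i = Fj j - (Γ₀ + E) by simp only [Fj]; abel] at x
    exact ⟨cF.add (CarQ.sum _ fun i _ => (CarZ.carQ (wz i)).qsmul _), dj j, add_mem c0 e1, k1,
      fun P hP => (Pr.dsc_add _ _ _ _).trans_le (sub_nonpos.2 ((b0 P hP).trans (e0 P))),
      x.nef, x.big_iff.1 b2⟩
  obtain ⟨T₀, t1, t2, t3⟩ := FGm.comap (fam_H0 Fj μ) H (nsmulAddMonoidHom (ν + 1)) ⊤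
    (AddMonoid.fg_def.1 (Module.Finite.iff_addMonoid_fg.1 inferInstance)) fun _ _ => trivial
  let ψ : (Option (Fin k) → ℕ) →+ (Fin k → ℤ) :=
    { toFun := fun x i => μ * ((x (some i) : ℤ) - x none)
      map_zero' := funext fun i => by simp
      map_add' := fun x y => funext fun i => by simp only [Pi.add_apply]; push_cast; ring }
  have ev : ∀ (x : Option (Fin k) → ℕ) (P : Pl K),
      ((μ : ℝ) • lc Fj fun j => ((nsmulAddMonoidHom (ν + 1) x j : ℕ) : ℝ)) P =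
        μ * (ν + 1) * (∑ j, (x j : ℝ)) * F P + ∑ i, (ψ x i : ℝ) * w i P := fun x P => by
    have p : (ν + 1 : ℝ) ≠ 0 := by positivity
    have y : ∀ j, ((ν + 1 : ℝ) * x j) * ∑ i, (v j i : ℝ) * w i P =
        x j * ∑ i, (j.elim (-1) fun j => if i = j then 1 else 0 : ℚ) * w i P := fun j => by
      rw [Finset.mul_sum, Finset.mul_sum]
      refine Finset.sum_congr rfl fun i _ => ?_
      simp only [v]
      push_cast
      field_simp
    simp only [lc, Fj, Pi.smul_apply, Finset.sum_apply, Pi.add_apply, smul_eq_mul,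
      nsmulAddMonoidHom_apply, Nat.cast_mul, Nat.cast_add, Nat.cast_one, mul_add _ (F P), y,
      Finset.sum_add_distrib]
    rw [mul_add]
    congr 1
    · rw [← Finset.sum_mul, ← Finset.mul_sum]
      ring
    · simp [ψ, Fintype.sum_option, apply_ite ((↑) : ℚ → ℝ), mul_sub, sub_mul, Finset.mul_sum,
        Finset.sum_sub_distrib, mul_add, mul_assoc]
      ring
  refine FGm.of_index (N := fun _ => ⊥) (fam_Hs _ D) (@idl_bot _ _ _ _ _ _ _ _)
    (@prm_bot _ _ _ _ _ _ _ _ _) ⊤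
    (AddMonoid.fg_def.1 (AddGroup.fg_iff_addMonoid_fg.1
      (Module.Finite.iff_addGroup_fg.1 inferInstance))) μ0
    ⟨(fun x => (ψ x.1, x.2)) '' T₀, t1.image _, ?_, ?_⟩
  · rintro _ ⟨x, hx, rfl⟩
    refine mem_Hs.2 fun f0 P hP => ?_
    have y := (mem_H0.1 (t2 x hx)).resolve_left f0 P
    rw [Pi.add_apply, ev, F1 P hP.1 hP.2, mul_zero, zero_add, dv_apply, Pi.zero_apply,
      Finset.sum_congr rfl fun i _ => by rw [w1 i P hP.1 hP.2]] at y
    show 0 ≤ P.ord x.2 + ∑ i, ψ x.1 i * D i P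
    refine Int.cast_le (R := ℝ).1 ?_
    push_cast
    exact y
  rintro _ ⟨m, -, rfl⟩ f hf
  obtain ⟨l₁, h₁⟩ := exists_large (T.filter fun P => ¬ (Ov u P ∧ On n Λ P))
    (fun P => P.ord f + ∑ i, ((μ • m) i : ℝ) * w i P) F fun P hP =>
      (hF P (Finset.mem_filter.1 hP).1).2 (Finset.mem_filter.1 hP).2
  obtain ⟨l₂, h₂⟩ := exists_large hS.toFinset (fun P => -((∑ i, (μ • m) i * D i P : ℤ) : ℝ)) G
    fun P hP => g2 P (hS.mem_toFinset.1 hP)
  let L : ℕ := l₁ + ∑ i, (m i).natAbs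
  have hL : ∀ i, 0 ≤ m i + L := fun i => by
    have := Finset.single_le_sum (f := fun i => (m i).natAbs) (fun _ _ => Nat.zero_le _)
      (Finset.mem_univ i)
    simp only [L]
    omega
  let x : Option (Fin k) → ℕ := fun j => j.elim L fun i => (m i + L).toNat
  have ex : ψ x = μ • m := funext fun i => by
    show (μ : ℤ) * ((((m i + L).toNat : ℕ) : ℤ) - L) = _
    rw [Int.toNat_of_nonneg (hL i)]
    simp
  have mem : f ∈ H0 ((μ : ℝ) • lc Fj fun j => ((nsmulAddMonoidHom (ν + 1) x j : ℕ) : ℝ)) := by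
    refine mem_H0.2 (or_iff_not_imp_left.2 fun f0 => l.hart _ ((Dsc.dv l.smp f).add
      ((Dsc.sum l.smp _ fun j _ => (dj j).smul _).smul _)) fun P p => ?_)
    have hf' := mem_Hs.1 hf f0
    rw [Pi.add_apply, ev, ex, dv_apply]
    by_cases o : Ov u P ∧ On n Λ P
    · rw [F1 P o.1 o.2, mul_zero, zero_add, Finset.sum_congr rfl fun i _ => by rw [w1 i P o.1 o.2]]
      exact_mod_cast hf' P o
    by_cases r : P ∈ T
    · have y := h₁ (μ * (ν + 1) * ∑ j, (x j : ℝ)) ?_ P (Finset.mem_filter.2 ⟨r, o⟩)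
      · linarith
      have z : l₁ ≤ μ * (ν + 1) * ∑ j, x j := by
        refine le_trans ?_ (Nat.le_mul_of_pos_left _ (Nat.mul_pos μ0 ν.succ_pos))
        exact (Nat.le_add_right _ _).trans (Finset.single_le_sum (f := x)
          (fun _ _ => Nat.zero_le _) (Finset.mem_univ none))
      exact_mod_cast z
    · have y := Kl.harto' a.ff a.big ((Dsc.dv a.smp f).add (g1.smul l₂)) a.base (fun Q q1 q2 => ?_)
        (Kl.inf_zero.1 (uI.2 P p r))
      · rw [Pi.add_apply, Pi.smul_apply, uG.2 P p r, smul_zero, add_zero, dv_apply] at y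
        simpa only [uF.2 P p r, w0 _ P p r, mul_zero, Finset.sum_const_zero, add_zero] using y
      have y := Int.cast_le (R := ℝ).2 (hf' Q ⟨q1, q2⟩)
      rw [Int.cast_add, Int.cast_zero] at y
      rw [Pi.add_apply, Pi.smul_apply, dv_apply, smul_eq_mul]
      by_cases z : Q ∈ hS.toFinset
      · linarith [h₂ l₂ le_rfl Q z]
      · rw [Finset.sum_eq_zero fun i _ => by
          rw [not_not.1 fun b => z (hS.mem_toFinset.2 (mem_iUnion.2 ⟨i, q1, q2, b⟩)), mul_zero],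
          Int.cast_zero, add_zero] at y
        exact add_nonneg y (mul_nonneg l₂.cast_nonneg (g0 Q))
  exact sup_le_sup_right (gen_le_iff.2 fun g hg => mem_gen (ex ▸ hg.map ψ)) _ (t3 x trivial mem)

end Vale.Agent.P283R.Un
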