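import Vale.Agent.P283R.H.All0
import Vale.Agent.P283R.Mi.Gl
import Vale.Agent.P283R.Em.Re
import Vale.Agent.P283R.Br.Lc3
import Vale.Agent.P283R.Et.All
import Vale.Agent.P283R.To.Qtt
import Vale.Agent.P283R.To.Tie
import Vale.Agent.P283R.To.Sch
import Vale.Agent.P283R.To.Mop
import Vale.Agent.P283R.To.Pri
import Vale.Agent.P283R.Sl.Un

/-!
# P283R: the assembly of the three classes
-/

namespace Vale.Agent.P283R.Un

theorem qu : Mi.Qu :=
  Mi.qu_of (fun _ _ _ _ _ _ _ _ _ _ _ _ _ _ hl hS q hq => Em.re hl hS q hq) H.hup0 H.ac0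

theorem qec : Stm.QEc fun _ => True := Et.glueEn (Br.qn_of qu)

theorem qt : Tor.QT := To.sch (To.tie To.mop To.pri (To.qt_tt (Co.tt_tw (Co.tw_of Co.ap))))

end Vale.Agent.P283R.Un
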