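import Vale.Agent.P283R.Un.Fg
import Vale.Agent.P283R.Cx.Ga

/-!
# P283R: the rings of sections on varieties of Fano type are finitely generated, the scheme side
-/

open Set CategoryTheory AlgebraicGeometry

noncomputable section

namespace Vale.Agent.P283R.Un

open P277Z.Gr MvPolynomial in
theorem gg {K : Type} [Field K] [Algebra ℂ K] {k : ℕ} {H : (Fin k → ℤ) → Submodule ℂ K}
    (hH : Fam H) (h : FG H univ) : ∃ N, Sl.GradedGen N fun m => (H m : Set K) := by
  classical
  obtain ⟨N, a, s, h1, h2⟩ := FGm.exists_fin h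
  let π : Sl.Poly N →ₐ[ℂ] Sl.Laurent K k := aeval fun j => .single (a j) (s j)
  have e : ∀ j, π (X j) = .single (a j) (s j) := aeval_X _
  refine ⟨N, s, a, π, e, fun F => ⟨?_, fun hF => ?_⟩⟩
  · rintro ⟨p, rfl⟩ m
    induction p using induction_on' with
    | monomial n r =>
      have : π (monomial n r) = .single (∑ j, n j • a j) (r • ∏ j, s j ^ n j) := by
        rw [monomial_eq, Finsupp.prod_fintype _ _ (by simp), C_mul', map_smul, map_prod]
        simp only [map_pow, e, AddMonoidAlgebra.single_pow, AddMonoidAlgebra.prod_single,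
          AddMonoidAlgebra.smul_single]
      rw [this, AddMonoidAlgebra.coeff_single, Finsupp.single_apply]
      split_ifs with z
      exacts [z ▸ Submodule.smul_mem _ _ (Mono.mem_fam hH (by rintro _ ⟨j, rfl⟩; exact h1 j)
        ((Mono.iff_range a s).2 ⟨n, rfl, rfl⟩)), zero_mem _]
    | add p q hp hq => rw [map_add]; exact add_mem hp hq
  · have m1 : ∀ m φ, Mono (range fun i => (a i, s i)) m φ → .single m φ ∈ π.range := fun m φ x => by
      induction x with
      | one => exact one_mem _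
      | mul t _ ih =>
        obtain ⟨j, t⟩ := t
        obtain ⟨rfl, rfl⟩ := Prod.mk.inj t
        rw [← AddMonoidAlgebra.single_mul_single]
        exact mul_mem ⟨_, e j⟩ ih
    have m2 : ∀ m, ∀ φ ∈ gen ℂ (range fun i => (a i, s i)) m, .single m φ ∈ π.range :=
      fun m φ x => by
        induction x using Submodule.span_induction with
        | mem x hx => exact m1 m x hx
        | zero => rw [AddMonoidAlgebra.single_zero]; exact zero_mem _
        | add x y _ _ hx hy => rw [AddMonoidAlgebra.single_add]; exact add_mem hx hy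
        | smul r x _ hx => rw [← AddMonoidAlgebra.smul_single]; exact Subalgebra.smul_mem _ hx r
    show F ∈ π.range
    rw [← AddMonoidAlgebra.sum_coeff_single F]
    exact sum_mem fun m _ => m2 m _ ((h2 m trivial).trans_eq (sup_bot_eq _) (hF m))

section

open Vale.Agent.P289 (Pt St toRat DForm dimension)
open Vale.Agent.P287D Vale.Agent.P283M.Stm Vale.Agent.P283M.Stm.Var Vale.Agent.P297Z
open Vale.Agent.P283M Vale.Agent.P283M.Br Vale.Agent.P283R.Sch Vale.Agent.P283R.Cox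

theorem sch {X Z : Var} {n k : ℕ} {f : X.X ⟶ Z.X} {z : Pt Z.X} {V : Z.X.Opens}
    {ω : DForm ℂ X.K (n + 1)} (hdim : dimension X.str = (n + 1 : ℕ)) (hω : ω.Nonzero)
    (hf : Contraction f) (hF : FanoType f ω) (hz : IsClosed ({z} : Set (Pt Z.X)))
    (hV : IsAffineOpen V) (zV : z ∈ V) (D : Fin k → X.PrimeDiv →₀ ℤ) :
    ∃ N, Sl.GradedGen N fun m => {φ : X.K | φ ≠ 0 →
      ∀ E : X.PrimeDiv, E.1 ∈ f ⁻¹ᵁ V → 0 ≤ ord φ E + ∑ i, m i * D i E} := by
  obtain ⟨u, bs⟩ := basV hf hz hV zV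
  obtain ⟨C, hC, hA⟩ := hF
  obtain ⟨Λ, Γ, Γ', a, on, -⟩ := dataW (ε := 0) (ffd X _ hdim) hω
    ⟨hC.1, hC.2.1, fun M E c m g m0 hg => (hC.2.2 M E c m g m0 hg).le⟩ hf ⟨C, hC, hA⟩ bs
  choose Q e o using pl_of (X := X) plc
  obtain ⟨N, h⟩ := gg (fam_Hs _ _) (fg a (fun i => up (D i)) fun i =>
    ((D i).support.finite_toSet.image Q).subset (by
      rintro P ⟨a, b, c⟩
      obtain ⟨x, hx, dm⟩ := bs.ctr P.ring P.con a
      rw [up_eq (E := ⟨x, (on P x hx dm).1 b⟩) _ dm] at c
      exact ⟨_, Finsupp.mem_support_iff.2 c, Pl.ext' (congrArg _ (Pl.eq_of_le'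
        (v := (Q _).toPlace) (w := P.toPlace) fun g hg => (dm g ((e _ g).1 hg)).1))⟩))
  obtain ⟨s, b, π, h1, h2⟩ := h
  refine ⟨N, s, b, π, h1, fun F => (h2 F).trans (forall_congr' fun m =>
    mem_Hs.trans (imp_congr_right fun _ => ?_))⟩
  refine Iff.trans ⟨fun H P a b => H P ⟨a, b⟩, fun H P c => H P c.1 c.2⟩
    (all_iff bs on fun P E _ dm => ?_).symm
  rw [← cf_eq D m dm, ord_eq dm]
  rfl

end

open Sl Sl.Var in
/-- **universality** over a given affine neighbourhood -/
theorem gen {d k : ℕ} {X Z : Sl.Var} {f : X.X ⟶ Z.X} {ω : X.Form d} {z : Sl.Pt Z.X}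
    (hd : 1 ≤ d) (hdim : Sl.dimension X.str = d) (hω : ω.Nonzero) (hf : Sl.Contraction f)
    (hF : Sl.FanoType f ω) (hz : z.Closed) {V : Z.X.Opens} (hV : IsAffineOpen V) (zV : z.In V)
    (D : Fin k → X.Div) : ∃ N, GradedGen N fun m => sections (pre f V) (comb D m) := by
  obtain ⟨n, rfl⟩ : ∃ n, d = n + 1 := ⟨d - 1, by omega⟩
  exact sch (X := X.o) (Z := Z.o) hdim hω hf ((fanoType_iff f ω).1 hF) hz hV zV D

/-- **UN** -/
theorem un : Sl.UN := fun _ _ Z _ _ z a b c e s t _ D => by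
  obtain ⟨_, ⟨V, hV, rfl⟩, zV, -⟩ := Z.X.isBasis_affineOpens.exists_subset_of_mem_open
    (mem_univ z) isOpen_univ
  obtain ⟨N, h⟩ := gen a b c e s t hV zV D
  exact ⟨V, N, hV, zV, h⟩

/-- every contraction of Fano type is in the class for some `l` -/
theorem all {d : ℕ} (hd : 1 ≤ d) (X Z : Sl.Var) (f : X.X ⟶ Z.X) (ω : X.Form d)
    (B : X.QDiv) (z : Sl.Pt Z.X) (a : Sl.dimension X.str = d) (b : ω.Nonzero)
    (s : Sl.Contraction f) (u : Sl.FanoType f ω) (t : z.Closed) : ∃ l, Sl.Generated l f ω B z :=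
  Sl.gen_all un hd X Z f ω B z a b s u t

end Vale.Agent.P283R.Un
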